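import Vale.Agent.P011UW3.Root
import Vale.Agent.P011UE.Spec
import Vale.Agent.P011.H209.Insep.Top
import Vale.Agent.P011.H209.Insep.Cram
import Vale.Agent.P011.H209.Insep.Comp
import Vale.Agent.P011.H275.GW8c
import Vale.Agent.P011.H677.NSF.Main
import Vale.Agent.P011.H677.GW.RootFF
import Vale.Agent.P011.H605.Odd.GermGood
import Vale.Agent.P011.H612.Germ.Inst
import Vale.Agent.P011.H192.Span.Alg
import Vale.Agent.P011.H775.Odd.TopNb
import Vale.Agent.P011.H775.Odd.TopFF

/-!
Function fields: homomorphisms of finite exponent near one vanish on the elements of reduced norm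
one.
-/

open Module Filter Topology

set_option linter.unusedSectionVars false
set_option linter.style.haveILetI false

namespace Vale.Agent.P011UW3

open Vale.Agent.P011 Vale.Agent.P011.H738 Vale.Agent.P011.H271 Vale.Agent.P011.W
open Vale.Agent.P011.H279.Sq Vale.Agent.P011.H209.Insep Vale.Agent.P011.H775.Top
open Vale.Agent.P011.H677.GW (nb Good)
open Vale.Agent.P011UE

variable {k D : Type} [Field k] [DivisionRing D] [Algebra k D] [FiniteDimensional k D]

/-- The two filters of the neighbourhoods of one agree. -/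
theorem nT_eq (T : Finset (Place k)) [Nonempty T] :
    nT T D = (letI := topk (avF T); nb k D) := by
  ext V
  refine Iff.trans ?_ (eventually_nb_iff (finBasis k D) (avF T) (P := fun x => x ∈ V)).symm
  constructor
  · rintro ⟨ε, hε, h⟩
    exact ⟨ε, hε, fun x hx => h x fun v hv j => hx ⟨v, hv⟩ j⟩
  · rintro ⟨ε, hε, h⟩
    exact ⟨ε, hε, fun x hx => h x fun v j => hx v.1 v.2 j⟩

variable [GFF k] [Algebra.IsCentral k D] {n : ℕ}

/-- The part of the exponent which is prime to the characteristic. -/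
theorem rw_prime (hD : finrank k D = n ^ 2) (T : Finset (Place k)) [Nonempty T] {E : Type}
    [AddCommGroup E] {M : ℕ} (hMk : (M : k) ≠ 0) (hE : ∀ x : E, M • x = 0) {F : D → E}
    (hF : ∀ᶠ p in nT T D ×ˢ nT T D, F (p.1 * p.2) = F p.1 + F p.2) :
    ∀ᶠ x in nT T D, HasNrd k n x 1 → F x = 0 := by
  have hM0 : M ≠ 0 := by
    rintro rfl
    exact hMk Nat.cast_zero
  haveI : Infinite k := Hey.gff_infinite k
  obtain ⟨q, hqp, hqc, -⟩ := H192.Span.exists_char k
  obtain ⟨t, ht0, ht⟩ := exists_small_ff T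
  rw [nT_eq T] at hF ⊢
  letI := topk (avF T)
  haveI := topk_isTopologicalDivisionRing (avF T)
  haveI := topk_t2 (avF T)
  exact H275.GW8.rw_sep (k := k) (A := E) (H612.Germ.conjP_topk (avF T) ht0 ht E)
    (H612.Germ.conjM_topk (avF T) ht0 ht E) (H605.Odd.baseP k E) hM0 hE hMk
    (fun p hp hpl => H677.NSF.nSurP_ff T hp fun h0 => by
      obtain ⟨r, rfl⟩ := hpl
      exact hMk (by rw [Nat.cast_mul, h0, zero_mul]))
    (H677.GW.rootP_ff (avF T) (avF_nonarch T) q M hMk) (K := k) (D := D) hD hF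

/-- The prime equal to the characteristic. -/
theorem rw_char {p e m : ℕ} [Fact p.Prime] [CharP k p] (hnm : n = p ^ e * m)
    (hD : finrank k D = n ^ 2) (T : Finset (Place k)) [hT : Nonempty T] {E : Type}
    [AddCommGroup E] {F : D → E}
    (hF : ∀ᶠ p in nT T D ×ˢ nT T D, F (p.1 * p.2) = F p.1 + F p.2) :
    ∀ᶠ x in nT T D, HasNrd k n x 1 → m • F x = 0 := by
  classical
  have hn0 : 0 < n := deg_pos hD
  let a : T → AbsoluteValue k ℝ := avF T
  have ha : ∀ v, IsNonarchimedean (a v) := avF_nonarch T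
  let B := finBasis k D
  obtain ⟨c, hcT, hcB⟩ := exists_unif hD T
  obtain ⟨v0, hv0⟩ := id hT
  have hc0 : c ≠ 0 := (hcT v0 hv0).1
  have hlt : ∀ v : T, a v c < 1 := fun v => (hcT v v.2).2.1
  obtain ⟨L, _, _, j, x, hL, hx⟩ := exists_root_field hD hcB
  have hξ : (x ^ m) ^ p ^ e = algebraMap k L c := by
    rw [← pow_mul, mul_comm m, ← hnm, hx]
  obtain ⟨s0, hsep, hs0⟩ := exists_sep_gen (K := k) (D := D) hD
  obtain ⟨κ, hadd, hsum, hzero, hbd⟩ := exists_comp (k := k) (p := p) (e := e) a ha hT hc0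
    hlt (fun v => (hcT v v.2).2.2)
  have hκ : ∀ i, @Continuous k k (topk a) (topk a) (κ i) := by
    intro i
    obtain ⟨C, hC, hCv⟩ : ∃ C : ℝ, 0 < C ∧ ∀ v : T, ((a v c) ^ (i : ℕ))⁻¹ ≤ C := by
      refine ⟨∑ v : T, ((a v c) ^ (i : ℕ))⁻¹, ?_, fun v => ?_⟩
      · refine Finset.sum_pos (fun v _ => ?_) ⟨⟨v0, hv0⟩, Finset.mem_univ _⟩
        have := (a v).pos hc0
        positivity
      · refine Finset.single_le_sum (f := fun v : T => ((a v c) ^ (i : ℕ))⁻¹) (fun v _ => ?_)
          (Finset.mem_univ v)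
        have := (a v).nonneg c
        positivity
    refine continuous_add a (q := p ^ e) (hadd i) hC fun v b => ?_
    have h1 : a v (κ i b) ^ p ^ e * a v c ^ (i : ℕ) ≤ a v b := hbd v i b
    have h2 : 0 < a v c ^ (i : ℕ) := pow_pos ((a v).pos hc0) _
    have h3 : a v (κ i b) ^ p ^ e ≤ (a v c ^ (i : ℕ))⁻¹ * a v b := by
      rw [inv_mul_eq_div, le_div_iff₀ h2]
      exact h1
    exact h3.trans (mul_le_mul_of_nonneg_right (hCv v) ((a v).nonneg b))
  have hconj := H612.Germ.conjP_topk a hc0 hlt E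
  have hnb : nT T D = @nhds D (topD B a) 1 := (nT_eq T).trans (nb_eq B a)
  have hgood : @Good k _ (topk a) E _ D _ _ F := by
    rw [nT_eq T] at hF
    exact hF
  have hinv0 : ∀ g : D, g ≠ 0 → ∀ᶠ u in @nhds D (topD B a) 1, F (g * u * g⁻¹) = F u := by
    intro g hg
    rw [← nb_eq B a]
    exact hconj D F hgood g hg
  obtain ⟨V, hV, hVF⟩ : ∃ V ∈ @nhds D (topD B a) 1,
      ∀ g ∈ V, ∀ g' ∈ V, F (g * g') = F g + F g' := by
    rw [hnb] at hF
    obtain ⟨V, hV, h⟩ := Filter.mem_prod_self_iff.mp hF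
    exact ⟨V, hV, fun g hg g' hg' => h (Set.mk_mem_prod hg hg')⟩
  rw [hnb]
  letI tk : TopologicalSpace k := topk a
  letI tD : TopologicalSpace D := topD B a
  haveI := isTopologicalDivisionRing B a
  haveI := t2 B a
  haveI := topk_isTopologicalDivisionRing a
  haveI := topk_t2 a
  haveI := topk_neBot a hc0 hlt
  have hcont : Continuous (algebraMap k D) :=
    continuous_lin (Basis.singleton Unit k) B a (Algebra.linearMap k D)
  obtain ⟨O, I, hRd, hI⟩ := exists_rd B a ha hV hVF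
  have hdegle : ∀ y : D, (minpoly k y).natDegree ≤ n := by
    obtain ⟨b, hb⟩ := exists_lb hD hn0 hL j
    obtain ⟨R, -⟩ := hb.exists_rho
    exact fun y => natDegree_le hn0 R y
  have hlin : ∀ l : D →ₗ[k] k, Continuous l := fun l =>
    continuous_lin B (Basis.singleton Unit k) a l
  exact rwp hcont hnm hn0 hD hL j hξ κ hκ
    (fun b => (hsum b).trans (Finset.sum_congr rfl fun i _ => mul_comm _ _)) hzero
    (fun z hz => cramer hlin hdegle hz) hsep hs0 hRd hI hinv0

/-- Every exponent. -/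
theorem rw_ff (hD : finrank k D = n ^ 2) (T : Finset (Place k)) [Nonempty T] {E : Type}
    [AddCommGroup E] {M : ℕ} (hM : M ≠ 0) (hE : ∀ x : E, M • x = 0) {F : D → E}
    (hF : ∀ᶠ p in nT T D ×ˢ nT T D, F (p.1 * p.2) = F p.1 + F p.2) :
    ∀ᶠ x in nT T D, HasNrd k n x 1 → F x = 0 := by
  obtain ⟨p, hp, hpc, -⟩ := H192.Span.exists_char k
  obtain ⟨a, M', hM', hMM⟩ := Nat.exists_eq_pow_mul_and_not_dvd hM p hp.out.ne_one
  obtain ⟨e, m, hm, hnm⟩ := Nat.exists_eq_pow_mul_and_not_dvd (deg_pos hD).ne' p hp.out.ne_one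
  let A : AddSubgroup E := (nsmulAddMonoidHom M' : E →+ E).ker
  let F' : D → A := fun x => ⟨p ^ a • F x, by
    change M' • p ^ a • F x = 0
    rw [smul_smul, mul_comm, ← hMM]
    exact hE _⟩
  have h1 := rw_prime hD T (E := A) (M := M') (F := F')
    (fun h => hM' ((CharP.cast_eq_zero_iff k p M').mp h)) (fun x => Subtype.ext x.2)
    (hF.mono fun q hq => Subtype.ext (by
      change p ^ a • F (q.1 * q.2) = p ^ a • F q.1 + p ^ a • F q.2
      rw [hq, smul_add]))
  filter_upwards [h1, rw_char hnm hD T hF] with x h2 h3 hx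
  have h4 : p ^ a • F x = 0 := congrArg Subtype.val (h2 hx)
  have h5 : Nat.gcd (p ^ a) m • F x = 0 :=
    addOrderOf_dvd_iff_nsmul_eq_zero.mp (Nat.dvd_gcd
      (addOrderOf_dvd_of_nsmul_eq_zero h4) (addOrderOf_dvd_of_nsmul_eq_zero (h3 hx)))
  rwa [(Nat.Coprime.pow_left a ((Nat.Prime.coprime_iff_not_dvd hp.out).mpr hm)).gcd_eq_one,
    one_smul] at h5

/-- The statement `RWK` for the fields with the property `P`. -/
def RWKon (P : ∀ (k : Type) [Field k], Prop) : Prop := All fun k D _ _ _ _ _ N => P k →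
  ∀ T : Finset (Place k), T.Nonempty → ∀ (E : Type) [AddCommGroup E] (e : ℕ), e ≠ 0 →
    (∀ x : E, e • x = 0) → ∀ F : D → E,
      (∀ᶠ p in nT T D ×ˢ nT T D, F (p.1 * p.2) = F p.1 + F p.2) →
      ∀ᶠ x in nT T D, N x = 1 → F x = 0

/-- **`RWK` for the function fields.** -/
theorem rwkf : RWKon fun k _ => IsGlobalFunctionField k := by
  intro k D _ _ _ _ n N h hk T hT E _ e he hE F hF
  haveI := gff_of_isGlobal hk
  haveI := h.central
  haveI : Nonempty T := hT.to_subtype
  refine (rw_ff h.rank T he hE hF).mono fun x hx h1 => hx ?_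
  rw [← h1]
  exact h.nrd x

/-- **`RWK` from the case of the number fields.** -/
theorem rwk_of (hN : RWKon fun k _ => NumberField k) : RWK := by
  intro k D _ _ _ _ n N h
  rcases h.glob with hk | hk
  · exact hN k D n N h hk
  · exact rwkf k D n N h hk

end Vale.Agent.P011UW3
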