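import Vale.Agent.P011.H209.Insep.Gen
import Vale.Agent.P011.H380.Good7.SplitMaxF

/-!
The field of the `n`-th root of a uniformizer at the places where the algebra does not split is a
maximal subfield of a central division algebra of degree `n` over a global function field.
-/

open Module Polynomial

namespace Vale.Agent.P011UW3

open Vale.Agent.P011 Vale.Agent.P011.H738 Vale.Agent.P011.H271 Vale.Agent.P011.W
open Vale.Agent.P011.H279.Sq

variable {k D : Type} [Field k] [GFF k] [DivisionRing D] [Algebra k D] [FiniteDimensional k D]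
  [Algebra.IsCentral k D] {n : ℕ}

/-- A field which contains the root splits the algebra. -/
theorem spl_root_field (hD : finrank k D = n ^ 2) {c : k}
    (hc : ∀ v : Place k, Spl D n (algebraMap k v.comp) ∨ Uni v c) (L : Type) [Field L]
    [Algebra k L] [FiniteDimensional k L] {θ : L} (hθ : θ ^ n = algebraMap k L c) :
    Spl D n (algebraMap k L) := by
  have : GFF L := Hey.H63.gff_of_finite (k := k)
  refine spl_of_local hD L fun W => ?_
  obtain ⟨v, e, he, hvW⟩ := Hey.H63.exists_below (k := k) W
  obtain ⟨φ, hφ⟩ := Hey.H63.exists_compHom v W he hvW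
  have hcomp : φ.comp (algebraMap k v.comp) = (algebraMap L W.comp).comp (algebraMap k L) :=
    RingHom.ext fun c => hφ c
  rw [← hcomp]
  rcases hc v with h | h
  · exact h.comp φ
  · let _ : NontriviallyNormedField v.comp := nnfPlace v
    have hc1 : ‖algebraMap k v.comp c‖ < 1 := by
      have h3 : ‖algebraMap k v.comp c‖ = v.abv c := norm_alg v _
      rw [h3]
      exact h.2.1
    refine spl_step hD (algebraMap k v.comp) ((_root_.map_ne_zero _).mpr h.1) hc1
      (fun y hy => h.comp y hy) φ (θ := algebraMap L W.comp θ) ?_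
    rw [← map_pow, hθ]
    exact (hφ c).symm

/-- **The field of the `n`-th root.** -/
theorem exists_root_field (hD : finrank k D = n ^ 2) {c : k}
    (hc : ∀ v : Place k, Spl D n (algebraMap k v.comp) ∨ Uni v c) :
    ∃ (L : Type) (_ : Field L) (_ : Algebra k L) (_ : L →ₐ[k] D) (x : L),
      finrank k L = n ∧ x ^ n = algebraMap k L c := by
  have hn : n ≠ 0 := (deg_pos hD).ne'
  have hP : (X ^ n - C c : k[X]).natDegree ≠ 0 := by
    rw [natDegree_X_pow_sub_C]
    exact hn
  have hP0 : (X ^ n - C c : k[X]) ≠ 0 := (monic_X_pow_sub_C _ hn).ne_zero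
  obtain ⟨f, hf, hfP⟩ := exists_irreducible_of_natDegree_ne_zero hP
  have : Fact (Irreducible f) := ⟨hf⟩
  have hfin : FiniteDimensional k (AdjoinRoot f) := (AdjoinRoot.powerBasis hf.ne_zero).finite
  have hrk : finrank k (AdjoinRoot f) = f.natDegree := by
    rw [(AdjoinRoot.powerBasis hf.ne_zero).finrank, AdjoinRoot.powerBasis_dim]
  have hle : f.natDegree ≤ n := by
    have h1 := natDegree_le_of_dvd hfP hP0
    rwa [natDegree_X_pow_sub_C] at h1
  have hθ : (AdjoinRoot.root f) ^ n = algebraMap k (AdjoinRoot f) c := by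
    have h1 : aeval (AdjoinRoot.root f) (X ^ n - C c : k[X]) = 0 := by
      obtain ⟨g, hg⟩ := hfP
      rw [hg, map_mul]
      have h2 : aeval (AdjoinRoot.root f) f = 0 := by
        rw [AdjoinRoot.aeval_eq, AdjoinRoot.mk_self]
      rw [h2, zero_mul]
    rwa [map_sub, map_pow, aeval_X, aeval_C, sub_eq_zero] at h1
  have hspl := spl_root_field hD hc (AdjoinRoot f) hθ
  have h3 := H505.Wang.dvd_of_spl hD _ hspl
  have h4 : finrank k (AdjoinRoot f) = n := by
    refine le_antisymm (by rw [hrk]; exact hle) (Nat.le_of_dvd ?_ h3)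
    rw [hrk]
    exact hf.natDegree_pos
  obtain ⟨j⟩ := embed_of_spl hD h4 hspl
  exact ⟨AdjoinRoot f, inferInstance, inferInstance, j, AdjoinRoot.root f, h4, hθ⟩

/-- A uniformizer at the places of `T` and at the places where the algebra does not split. -/
theorem exists_unif (hD : finrank k D = n ^ 2) (T : Finset (Place k)) :
    ∃ c : k, (∀ v ∈ T, Uni v c) ∧ ∀ v : Place k, Spl D n (algebraMap k v.comp) ∨ Uni v c := by
  classical
  obtain ⟨S, hS⟩ := H380.Good7.exists_spl_setF (F := k) (B := D) hD
  obtain ⟨c, hc⟩ := H209.Insep.exists_unif_fam (T ∪ S)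
  refine ⟨c, fun v hv => hc v (Finset.mem_union_left _ hv), fun v => ?_⟩
  by_cases hv : v ∈ S
  · exact Or.inr (hc v (Finset.mem_union_right _ hv))
  · exact Or.inl (hS v hv)

end Vale.Agent.P011UW3
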